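import Vale.Agent.P324.Defs
import Vale.Agent.P324.Final
import Vale.Agent.P324.Core5

namespace Vale.Agent.Results.P324.APoly

open Vale.Agent.P324

/-- For every fixed number `m` of machines, in particular for `m = 3`, scheduling unit jobs with
precedence constraints is solvable in polynomial time: the decision problem, and the computation
of a schedule of least length. -/
theorem result (m : ℕ) (hm : 1 ≤ m) :
    (∃ (f : Graph × ℕ → Bool) (M : Turing.TM2ComputableInPolyTime
      (fun x : Graph × ℕ => x.1.code ++ x.2.bits) (fun b : Bool => [b]) f),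
      (∀ k, Finite (M.tm.Γ k)) ∧ ∀ G T, f (G, T) = true ↔ ∃ τ, IsSchedule m G T τ) ∧
    (∃ (g : Graph → List ℕ) (M : Turing.TM2ComputableInPolyTime Graph.code
      (fun l : List ℕ => l.flatMap unary) g),
      (∀ k, Finite (M.tm.Γ k)) ∧ ∀ G : Graph, G.Acyclic → ∃ T τ, g G = List.ofFn τ ∧
        IsSchedule m G T τ ∧ ∀ T' τ', IsSchedule m G T' τ' → T ≤ T') :=
  have hc : Core m (m + 11) := fun _ _ _ _ htr hinj hmono _ _ h => dec_of_sch htr hinj hmono h
  ⟨exists_decide_machine hc, exists_schedule_machine hc hm⟩

end Vale.Agent.Results.P324.APoly
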